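import Vale.Agent.P262.Main

namespace Vale.Agent.Results.P262.A_full

theorem result : ∃ C : ℝ, ∀ d : ℕ,
    (∀ (N : ℕ) (v : Fin N → EuclideanSpace ℝ (Fin d)), (∀ i, ‖v i‖ ≤ 1) →
      ∃ ε : Fin N → ℝ, (∀ i, ε i = 1 ∨ ε i = -1) ∧
        ∀ k ≤ N, ‖∑ i : Fin N with i.val < k, ε i • v i‖ ≤ C * √d) ∧
    (∀ (N : ℕ) (v : Fin N → EuclideanSpace ℝ (Fin d)), (∀ i, ‖v i‖ ≤ 1) → ∑ i, v i = 0 →
      ∃ π : Equiv.Perm (Fin N),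
        ∀ k ≤ N, ‖∑ i : Fin N with i.val < k, v (π i)‖ ≤ C * √d) := by
  obtain ⟨C, hC⟩ := Vale.Agent.P262.signs
  exact ⟨C, fun d => ⟨hC d, fun N v hv h0 => Vale.Agent.P262.steinitz (hC d N) v hv h0⟩⟩

end Vale.Agent.Results.P262.A_full
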